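import Vale.Agent.P181.SV.H376.Let
import Vale.Agent.P181.SV.Defs

set_option autoImplicit false

/-!
# P181, SV: the area of three columns
-/

namespace Vale.Agent.P181.SV.H376

open MvPolynomial
open Vale.Agent.P181.T4 (HW rowOp rowOp_apply mem_HW mem_HW_iff_isWeightedHomogeneous rowW)
open Vale.Agent.P181.SZT0 (rc inj_pr)

lemma rowOp_mul {n : ℕ} {τ : Type} [Fintype τ] (s i : Fin n) (f g : MvPolynomial (Fin n × τ) ℂ) :
    rowOp s i (f * g) = rowOp s i f * g + f * rowOp s i g := by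
  rw [rowOp_apply, rowOp_apply, rowOp_apply, Finset.sum_mul, Finset.mul_sum,
    ← Finset.sum_add_distrib]
  apply Finset.sum_congr rfl
  intro j _
  rw [pderiv_mul]
  ring

lemma HW_mul {n : ℕ} {τ : Type} [Fintype τ] {l l' : Fin n → ℕ}
    {f g : MvPolynomial (Fin n × τ) ℂ} (hf : f ∈ HW n τ l) (hg : g ∈ HW n τ l') :
    f * g ∈ HW n τ (l + l') := by
  rw [mem_HW_iff_isWeightedHomogeneous] at hf hg ⊢
  refine ⟨hf.1.mul hg.1, fun s i h => ?_⟩
  rw [rowOp_mul, hf.2 s i h, hg.2 s i h, zero_mul, mul_zero, add_zero]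

section area

variable {m : ℕ} (r0 r1 : Fin m)

/-- The area of three columns, in the rows `r0`, `r1`. -/
noncomputable def Ar : MvPolynomial (Fin m × Fin 3) ℂ :=
  X (r0, 0) * X (r1, 1) - X (r0, 1) * X (r1, 0) + (X (r0, 1) * X (r1, 2) - X (r0, 2) * X (r1, 1)) +
    (X (r0, 2) * X (r1, 0) - X (r0, 0) * X (r1, 2))

lemma pd (i : Fin m) (j : Fin 3) (r : Fin m) (k : Fin 3) :
    pderiv (R := ℂ) (i, j) (X (r, k)) = if r = i ∧ k = j then 1 else 0 := by
  rw [pderiv_X, Pi.single_apply]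
  congr 1
  rw [Prod.mk.injEq]

lemma Ar_tr (h : r0 ≠ r1) (i : Fin m) : ∑ j : Fin 3, pderiv (i, j) (Ar r0 r1) = 0 := by
  have h' := h.symm
  rw [Fin.sum_univ_three]
  simp only [Ar, map_add, map_sub, pderiv_mul, pd]
  by_cases h0 : r0 = i
  · subst h0
    simp [h']
    ring
  · by_cases h1 : r1 = i
    · subst h1
      simp [h]
      ring
    · simp [h0, h1]

lemma Ar_row (h : r0 ≠ r1) (s i : Fin m) (hs : r1 = i → s = r0) (hi : r0 ≠ i) :
    rowOp s i (Ar r0 r1) = 0 := by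
  rw [rowOp_apply, Fin.sum_univ_three]
  simp only [Ar, map_add, map_sub, pderiv_mul, pd]
  by_cases h1 : r1 = i
  · obtain rfl := hs h1
    subst h1
    simp [h]
    ring
  · simp [hi, h1]

lemma Ar_wt (i : Fin m → ℕ) (hi : Pi.single r0 1 + Pi.single r1 1 = i) :
    IsWeightedHomogeneous (rowW m (Fin 3)) (Ar r0 r1) i := by
  have h1 : ∀ a b : Fin 3, (X (r0, a) * X (r1, b) : MvPolynomial (Fin m × Fin 3) ℂ) ∈
      weightedHomogeneousSubmodule ℂ (rowW m (Fin 3)) i := by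
    intro a b
    have h2 := (isWeightedHomogeneous_X ℂ (rowW m (Fin 3)) (r0, a)).mul
      (isWeightedHomogeneous_X ℂ (rowW m (Fin 3)) (r1, b))
    rw [← hi]
    exact h2
  change Ar r0 r1 ∈ weightedHomogeneousSubmodule ℂ (rowW m (Fin 3)) i
  rw [Ar]
  exact add_mem (add_mem (sub_mem (h1 _ _) (h1 _ _)) (sub_mem (h1 _ _) (h1 _ _)))
    (sub_mem (h1 _ _) (h1 _ _))

/-- Columns of degree at most `c`. -/
def Cb (c : ℕ) (f : MvPolynomial (Fin m × Fin 3) ℂ) : Prop :=
  ∀ v, coeff v f ≠ 0 → ∀ j, ∑ i, v (i, j) ≤ c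

lemma Cb.add {c : ℕ} {f g : MvPolynomial (Fin m × Fin 3) ℂ} (hf : Cb c f) (hg : Cb c g) :
    Cb c (f + g) := by
  intro v hv
  rw [coeff_add] at hv
  by_cases h : coeff v f = 0
  · rw [h, zero_add] at hv
    exact hg v hv
  · exact hf v h

lemma Cb.sub {c : ℕ} {f g : MvPolynomial (Fin m × Fin 3) ℂ} (hf : Cb c f) (hg : Cb c g) :
    Cb c (f - g) := by
  intro v hv
  rw [coeff_sub] at hv
  by_cases h : coeff v f = 0
  · rw [h, zero_sub, neg_ne_zero] at hv
    exact hg v hv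
  · exact hf v h

lemma Cb.mul {c c' : ℕ} {f g : MvPolynomial (Fin m × Fin 3) ℂ} (hf : Cb c f) (hg : Cb c' g) :
    Cb (c + c') (f * g) := by
  classical
  intro v hv j
  rw [coeff_mul] at hv
  obtain ⟨⟨u, w⟩, huw, h1⟩ := Finset.exists_ne_zero_of_sum_ne_zero hv
  rw [Finset.HasAntidiagonal.mem_antidiagonal] at huw
  have h2 := hf u (left_ne_zero_of_mul h1) j
  have h3 := hg w (right_ne_zero_of_mul h1) j
  rw [← huw]
  simp only [Finsupp.add_apply, Finset.sum_add_distrib]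
  omega

lemma Cb_XX {a b : Fin 3} (hab : a ≠ b) :
    Cb 1 (X (r0, a) * X (r1, b) : MvPolynomial (Fin m × Fin 3) ℂ) := by
  classical
  intro v hv j
  have h1 : (X (r0, a) * X (r1, b) : MvPolynomial (Fin m × Fin 3) ℂ) =
      monomial (Finsupp.single (r0, a) 1 + Finsupp.single (r1, b) 1) 1 := by
    rw [X, X, monomial_mul, one_mul]
  rw [h1, coeff_monomial] at hv
  have h2 : Finsupp.single (r0, a) 1 + Finsupp.single (r1, b) 1 = v := by
    by_contra h
    exact hv (if_neg h)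
  rw [← h2]
  simp only [Finsupp.add_apply, Finsupp.single_apply, Prod.mk.injEq, Finset.sum_add_distrib]
  have h3 : ∀ (r : Fin m) (c : Fin 3), ∑ i : Fin m, (if r = i ∧ c = j then 1 else 0) =
      if c = j then 1 else 0 := by
    intro r c
    by_cases hc : c = j
    · simp [hc]
    · simp [hc]
  rw [h3, h3]
  by_cases ha : a = j
  · rw [if_pos ha, if_neg fun hb => hab (ha.trans hb.symm)]
  · rw [if_neg ha]
    split_ifs <;> omega

lemma Ar_cb : Cb 1 (Ar r0 r1) := by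
  rw [Ar]
  exact (((Cb_XX r0 r1 (by decide)).sub (Cb_XX r0 r1 (by decide))).add
    ((Cb_XX r0 r1 (by decide)).sub (Cb_XX r0 r1 (by decide)))).add
    ((Cb_XX r0 r1 (by decide)).sub (Cb_XX r0 r1 (by decide)))

/-- The tables of the six terms. -/
def tA : Fin 6 → Fin 3 := ![0, 1, 1, 2, 2, 0]

/-- The tables of the six terms. -/
def tB : Fin 6 → Fin 3 := ![1, 0, 2, 1, 0, 2]

/-- The signs of the six terms. -/
def tE : Fin 6 → ℤ := ![1, -1, 1, -1, 1, -1]

/-- The exponents of the six terms. -/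
noncomputable def tV (k : Fin 6) : Fin m × Fin 3 →₀ ℕ :=
  Finsupp.single (r0, tA k) 1 + Finsupp.single (r1, tB k) 1

lemma Ar_eq : Ar r0 r1 = ∑ k : Fin 6, monomial (tV r0 r1 k) ((tE k : ℤ) : ℂ) := by
  have h1 : ∀ (k : Fin 6), monomial (tV r0 r1 k) ((tE k : ℤ) : ℂ) =
      C ((tE k : ℤ) : ℂ) * (X (r0, tA k) * X (r1, tB k)) := by
    intro k
    rw [tV, X, X, monomial_mul, one_mul, C_mul_monomial, mul_one]
  rw [Finset.sum_congr rfl fun k _ => h1 k]
  simp only [Fin.sum_univ_six, tA, tB, tE, Ar]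
  simp
  ring

/-- The values of the letters. -/
def cv (x y : ℕ) : ℤ := if (x = 1 ∧ y = 0) ∨ (x = 0 ∧ y = 2) then 1 else 0

lemma cv_sum : ∑ k : Fin 6, ∑ l : Fin 6, tE k * tE l * ∏ j : Fin 3,
    cv ((if tA k = j then 1 else 0) + (if tA l = j then 1 else 0))
      ((if tB k = j then 1 else 0) + (if tB l = j then 1 else 0)) = -6 := by
  decide

/-- The point of the letter ring. -/
noncomputable def pt (σ : Type) : (Fin m × σ) ⊕ (Fin m → ℕ) → ℂ :=
  Sum.elim (fun _ => 0) fun α => ((cv (α r0) (α r1) : ℤ) : ℂ)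

lemma eval_Lt (σ : Type) (α : Fin m → ℕ) :
    eval (pt r0 r1 σ) (Lt σ α) = ((cv (α r0) (α r1) : ℤ) : ℂ) := by
  rw [Lt]
  split_ifs with h
  · subst h
    simp [cv]
  · rw [eval_X, pt, Sum.elim_inr]

lemma L3_ne (σ : Type) (h : r0 ≠ r1) : L3 m σ (Ar r0 r1 * Ar r0 r1) ≠ 0 := by
  classical
  intro h0
  have h' := h.symm
  have h1 := congrArg (eval (pt r0 r1 σ)) h0
  rw [map_zero, Ar_eq, Finset.sum_mul_sum, map_sum, map_sum] at h1
  have h2 : ∀ k : Fin 6, eval (pt r0 r1 σ) (L3 m σ (∑ l : Fin 6,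
      monomial (tV r0 r1 k) ((tE k : ℤ) : ℂ) * monomial (tV r0 r1 l) ((tE l : ℤ) : ℂ))) =
      ((∑ l : Fin 6, tE k * tE l * ∏ j : Fin 3,
        cv ((if tA k = j then 1 else 0) + (if tA l = j then 1 else 0))
        ((if tB k = j then 1 else 0) + (if tB l = j then 1 else 0)) : ℤ) : ℂ) := by
    intro k
    rw [map_sum, map_sum]
    push_cast
    apply Finset.sum_congr rfl
    intro l _
    rw [monomial_mul, L3_monomial, smul_eval, Ev3, map_prod]
    congr 1
    apply Finset.prod_congr rfl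
    intro j _
    rw [eval_Lt]
    congr 2
    · simp [tV, Finsupp.single_apply, h']
    · simp [tV, Finsupp.single_apply, h]
  rw [Finset.sum_congr rfl fun k _ => h2 k, ← Int.cast_sum, cv_sum] at h1
  norm_num at h1

end area

end Vale.Agent.P181.SV.H376
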