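import Vale.Agent.P181.SV.H376.Ar

set_option autoImplicit false

/-!
# P181, SV (V1): multiplication by the square of the area of three new small columns
-/

namespace Vale.Agent.P181.SV.H376

open MvPolynomial
open Vale.Agent.P181.T4 (HW rowOp rowOp_apply mem_HW mem_HW_iff_isWeightedHomogeneous rowW)
open Vale.Agent.P181.SZT0 (rc inj_pr coeff_rc rc_mem_HW)
open Vale.Agent.P181.DG
open Vale.Agent.P181.DG.H514 (KerT)
open Vale.Agent.P181.DGx.H831 (Sy pm_inj mem_PKT sy_of_mem pderiv_rc rc_rc kerStmt)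

section main

variable {m T : ℕ} {σ : Type} [Fintype σ]

/-- The old columns. -/
def i1 (σ : Type) (T : ℕ) : σ ⊕ Fin T → σ ⊕ Fin (T + 3) := Sum.map id (Fin.castAdd 3)

/-- The three new columns. -/
def i2 (σ : Type) (T : ℕ) : Fin 3 → σ ⊕ Fin (T + 3) := fun x => Sum.inr (Fin.natAdd T x)

omit [Fintype σ] in
lemma i1_inj : Function.Injective (i1 σ T) :=
  Sum.map_injective.2 ⟨Function.injective_id, Fin.castAdd_injective T 3⟩

omit [Fintype σ] in
lemma i2_inj : Function.Injective (i2 σ T) := fun _ _ h =>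
  Fin.natAdd_injective 3 T (Sum.inr_injective h)

omit [Fintype σ] in
lemma i1_nat (x : Fin 3) : (Sum.inr (Fin.natAdd T x) : σ ⊕ Fin (T + 3)) ∉ Set.range (i1 σ T) := by
  rintro ⟨y, hy⟩
  rcases y with y | y
  · simp [i1] at hy
  · simp only [i1, Sum.map_inr, Sum.inr.injEq] at hy
    have := congrArg Fin.val hy
    simp only [Fin.val_castAdd, Fin.val_natAdd] at this
    omega

omit [Fintype σ] in
lemma i2_cast (x : Fin T) :
    (Sum.inr (Fin.castAdd 3 x) : σ ⊕ Fin (T + 3)) ∉ Set.range (i2 σ T) := by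
  rintro ⟨y, hy⟩
  simp only [i2, Sum.inr.injEq] at hy
  have := congrArg Fin.val hy
  simp only [Fin.val_castAdd, Fin.val_natAdd] at this
  omega

omit [Fintype σ] in
lemma i2_inl (x : σ) : (Sum.inl x : σ ⊕ Fin (T + 3)) ∉ Set.range (i2 σ T) := by
  rintro ⟨y, hy⟩
  simp [i2] at hy

lemma md_apply {τ τ' : Type} {ι : τ → τ'} (hι : Function.Injective ι) (u : Fin m × τ →₀ ℕ)
    (i : Fin m) (x : τ) :
    Finsupp.mapDomain (fun p : Fin m × τ => (p.1, ι p.2)) u (i, ι x) = u (i, x) :=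
  Finsupp.mapDomain_apply (inj_pr hι) u (i, x)

lemma md_not {τ τ' : Type} {ι : τ → τ'} (u : Fin m × τ →₀ ℕ)
    (i : Fin m) {y : τ'} (hy : y ∉ Set.range ι) :
    Finsupp.mapDomain (fun p : Fin m × τ => (p.1, ι p.2)) u (i, y) = 0 := by
  apply Finsupp.mapDomain_of_notMem_range
  rintro ⟨⟨a, b⟩, hab⟩
  exact hy ⟨b, congrArg Prod.snd hab⟩

lemma Ev_mul (u : Fin m × (σ ⊕ Fin T) →₀ ℕ) (w : Fin m × Fin 3 →₀ ℕ) :
    Ev (Finsupp.mapDomain (fun p : Fin m × (σ ⊕ Fin T) => (p.1, i1 σ T p.2)) u +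
      Finsupp.mapDomain (fun p : Fin m × Fin 3 => (p.1, i2 σ T p.2)) w) = Ev u * Ev3 σ w := by
  obtain ⟨z, hz⟩ : ∃ z, z = Finsupp.mapDomain
      (fun p : Fin m × (σ ⊕ Fin T) => (p.1, i1 σ T p.2)) u +
      Finsupp.mapDomain (fun p : Fin m × Fin 3 => (p.1, i2 σ T p.2)) w := ⟨_, rfl⟩
  have g1 : ∀ p : Fin m × σ, z (p.1, Sum.inl p.2) = u (p.1, Sum.inl p.2) := fun p => by
    rw [hz, Finsupp.add_apply, md_not w p.1 (i2_inl p.2), add_zero]
    exact md_apply i1_inj u p.1 (Sum.inl p.2)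
  have g2 : ∀ j : Fin T, (fun i => z (i, Sum.inr (Fin.castAdd 3 j))) =
      fun i => u (i, Sum.inr j) := fun j => by
    funext i
    rw [hz, Finsupp.add_apply, md_not w i (i2_cast j), add_zero]
    exact md_apply i1_inj u i (Sum.inr j)
  have g3 : ∀ j : Fin 3, (fun i => z (i, Sum.inr (Fin.natAdd T j))) =
      fun i => w (i, j) := fun j => by
    funext i
    rw [hz, Finsupp.add_apply, md_not u i (i1_nat j), zero_add]
    exact md_apply i2_inj w i j
  rw [← hz]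
  have f1 : (∏ p : Fin m × σ, (X (Sum.inl p) : LR m σ) ^ z (p.1, Sum.inl p.2)) =
      ∏ p : Fin m × σ, X (Sum.inl p) ^ u (p.1, Sum.inl p.2) :=
    Finset.prod_congr rfl fun p _ => by rw [g1]
  have f2 : (∏ j : Fin T, Lt σ fun i => z (i, Sum.inr (Fin.castAdd 3 j))) =
      ∏ j : Fin T, Lt σ fun i => u (i, Sum.inr j) :=
    Finset.prod_congr rfl fun j _ => by rw [g2]
  have f3 : (∏ j : Fin 3, Lt σ fun i => z (i, Sum.inr (Fin.natAdd T j))) =
      ∏ j : Fin 3, Lt σ fun i => w (i, j) :=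
    Finset.prod_congr rfl fun j _ => by rw [g3]
  have f4 : (∏ j : Fin (T + 3), Lt σ fun i => z (i, Sum.inr j)) =
      (∏ j : Fin T, Lt σ fun i => u (i, Sum.inr j)) * ∏ j : Fin 3, Lt σ fun i => w (i, j) := by
    rw [Fin.prod_univ_add, f2, f3]
  have e1 : Ev z = (∏ p : Fin m × σ, (X (Sum.inl p) : LR m σ) ^ z (p.1, Sum.inl p.2)) *
      ∏ j : Fin (T + 3), Lt σ fun i => z (i, Sum.inr j) := rfl
  have e2 : Ev u = (∏ p : Fin m × σ, (X (Sum.inl p) : LR m σ) ^ u (p.1, Sum.inl p.2)) *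
      ∏ j : Fin T, Lt σ fun i => u (i, Sum.inr j) := rfl
  have e3 : Ev3 σ w = ∏ j : Fin 3, Lt σ fun i => w (i, j) := rfl
  rw [e1, e2, e3, f1, f4]
  exact (mul_assoc _ _ _).symm

lemma L_mul (f : MvPolynomial (Fin m × (σ ⊕ Fin T)) ℂ) (g : MvPolynomial (Fin m × Fin 3) ℂ) :
    L m σ (T + 3) (rc m (i1 σ T) f * rc m (i2 σ T) g) = L m σ T f * L3 m σ g := by
  induction f using MvPolynomial.induction_on' with
  | monomial u a =>
    induction g using MvPolynomial.induction_on' with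
    | monomial w b =>
      rw [rc, rc, rename_monomial, rename_monomial, monomial_mul, L_monomial, L_monomial,
        L3_monomial, Ev_mul, smul_mul_smul_comm]
    | add p q hp hq => rw [map_add, mul_add, map_add, hp, hq, map_add, mul_add]
  | add p q hp hq => rw [map_add, add_mul, map_add, hp, hq, map_add, add_mul]

/-- The symmetrised product. -/
noncomputable def Ph (σ : Type) [Fintype σ] (T : ℕ) (B : MvPolynomial (Fin m × Fin 3) ℂ) :
    MvPolynomial (Fin m × (σ ⊕ Fin T)) ℂ →ₗ[ℂ] MvPolynomial (Fin m × (σ ⊕ Fin (T + 3))) ℂ :=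
  ∑ s : Equiv.Perm (Fin (T + 3)),
    (rc m (Sum.map id s : σ ⊕ Fin (T + 3) → σ ⊕ Fin (T + 3))).toLinearMap ∘ₗ
      (LinearMap.mulRight ℂ (rc m (i2 σ T) B)) ∘ₗ (rc m (i1 σ T)).toLinearMap

lemma Ph_apply (B : MvPolynomial (Fin m × Fin 3) ℂ) (f : MvPolynomial (Fin m × (σ ⊕ Fin T)) ℂ) :
    Ph σ T B f = ∑ s : Equiv.Perm (Fin (T + 3)),
      rc m (Sum.map id s : σ ⊕ Fin (T + 3) → σ ⊕ Fin (T + 3))
        (rc m (i1 σ T) f * rc m (i2 σ T) B) := by
  rw [Ph, LinearMap.sum_apply]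
  rfl

lemma L_Ph (B : MvPolynomial (Fin m × Fin 3) ℂ) (f : MvPolynomial (Fin m × (σ ⊕ Fin T)) ℂ) :
    L m σ (T + 3) (Ph σ T B f) =
      (Fintype.card (Equiv.Perm (Fin (T + 3)))) • (L m σ T f * L3 m σ B) := by
  rw [Ph_apply, map_sum, Finset.sum_congr rfl fun s _ => L_perm s _, Finset.sum_const,
    Finset.card_univ, L_mul]

omit [Fintype σ] in
lemma pd_not {τ τ' : Type} {ι : τ → τ'} {y : τ'} (hy : y ∉ Set.range ι) (i : Fin m)
    (f : MvPolynomial (Fin m × τ) ℂ) : pderiv (i, y) (rc m ι f) = 0 := by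
  classical
  apply pderiv_eq_zero_of_notMem_vars
  intro h7
  have h8 := vars_rename (fun p : Fin m × τ => (p.1, ι p.2)) f h7
  rw [Finset.mem_image] at h8
  obtain ⟨⟨a, b⟩, _, hab⟩ := h8
  exact hy ⟨b, congrArg Prod.snd hab⟩

omit [Fintype σ] in
/-- The product before symmetrising is translation invariant. -/
lemma tr_prod {f : MvPolynomial (Fin m × (σ ⊕ Fin T)) ℂ} {B : MvPolynomial (Fin m × Fin 3) ℂ}
    (i : Fin m) (hf : ∑ j : Fin T, pderiv (i, (Sum.inr j : σ ⊕ Fin T)) f = 0)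
    (hB : ∑ j : Fin 3, pderiv (i, j) B = 0) :
    ∑ j : Fin (T + 3), pderiv (i, (Sum.inr j : σ ⊕ Fin (T + 3)))
      (rc m (i1 σ T) f * rc m (i2 σ T) B) = 0 := by
  have h1 : ∑ j : Fin (T + 3), pderiv (i, (Sum.inr j : σ ⊕ Fin (T + 3))) (rc m (i1 σ T) f) = 0 := by
    have g1 : ∀ j : Fin T, pderiv (i, (Sum.inr (Fin.castAdd 3 j) : σ ⊕ Fin (T + 3)))
        (rc m (i1 σ T) f) = rc m (i1 σ T) (pderiv (i, (Sum.inr j : σ ⊕ Fin T)) f) :=
      fun j => pderiv_rc (i1_inj (σ := σ) (T := T)) i (Sum.inr j) f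
    rw [Fin.sum_univ_add, Finset.sum_eq_zero fun j _ => pd_not (i1_nat j) i f, add_zero,
      Finset.sum_congr rfl fun j _ => g1 j, ← map_sum, hf, map_zero]
  have h2 : ∑ j : Fin (T + 3), pderiv (i, (Sum.inr j : σ ⊕ Fin (T + 3))) (rc m (i2 σ T) B) = 0 := by
    have g1 : ∀ j : Fin 3, pderiv (i, (Sum.inr (Fin.natAdd T j) : σ ⊕ Fin (T + 3)))
        (rc m (i2 σ T) B) = rc m (i2 σ T) (pderiv (i, j) B) :=
      fun j => pderiv_rc (i2_inj (σ := σ) (T := T)) i j B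
    rw [Fin.sum_univ_add, Finset.sum_eq_zero fun j _ => pd_not (i2_cast (σ := σ) j) i B, zero_add,
      Finset.sum_congr rfl fun j _ => g1 j, ← map_sum, hB, map_zero]
  rw [Finset.sum_congr rfl fun j _ => pderiv_mul, Finset.sum_add_distrib, ← Finset.sum_mul,
    ← Finset.mul_sum, h1, h2, zero_mul, mul_zero, add_zero]

omit [Fintype σ] in
lemma tr_perm (s : Equiv.Perm (Fin T)) (i : Fin m) {g : MvPolynomial (Fin m × (σ ⊕ Fin T)) ℂ}
    (hg : ∑ j : Fin T, pderiv (i, (Sum.inr j : σ ⊕ Fin T)) g = 0) :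
    ∑ j : Fin T, pderiv (i, (Sum.inr j : σ ⊕ Fin T))
      (rc m (Sum.map id s : σ ⊕ Fin T → σ ⊕ Fin T) g) = 0 := by
  rw [← Equiv.sum_comp s]
  have h1 : ∀ j : Fin T, pderiv (i, (Sum.inr (s j) : σ ⊕ Fin T))
      (rc m (Sum.map id s : σ ⊕ Fin T → σ ⊕ Fin T) g) =
      rc m (Sum.map id s : σ ⊕ Fin T → σ ⊕ Fin T) (pderiv (i, (Sum.inr j : σ ⊕ Fin T)) g) :=
    fun j => pderiv_rc (pm_inj (σ := σ) s) i (Sum.inr j) g
  rw [Finset.sum_congr rfl fun j _ => h1 j, ← map_sum, hg, map_zero]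

lemma coeff_mul_ne {τ : Type} {f g : MvPolynomial (Fin m × τ) ℂ} {v : Fin m × τ →₀ ℕ}
    (hv : coeff v (f * g) ≠ 0) : ∃ x y, x + y = v ∧ coeff x f ≠ 0 ∧ coeff y g ≠ 0 := by
  classical
  rw [coeff_mul] at hv
  obtain ⟨⟨u, w⟩, huw, h1⟩ := Finset.exists_ne_zero_of_sum_ne_zero hv
  rw [Finset.HasAntidiagonal.mem_antidiagonal] at huw
  exact ⟨u, w, huw, left_ne_zero_of_mul h1, right_ne_zero_of_mul h1⟩

lemma Ph_mem {S : ℕ} {d : σ → ℕ} {mu mu' om : Fin m → ℕ} (hS : 3 ≤ S) (hmu : mu' = mu + om)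
    {B : MvPolynomial (Fin m × Fin 3) ℂ} (hB1 : B ∈ HW m (Fin 3) om) (hB2 : Cb 2 B)
    (hB3 : ∀ i, ∑ j : Fin 3, pderiv (i, j) B = 0)
    {f : MvPolynomial (Fin m × (σ ⊕ Fin T)) ℂ} (hf : f ∈ PKT m S σ d T mu) :
    Ph σ T B f ∈ PKT m S σ d (T + 3) mu' := by
  obtain ⟨h0, h1, h2, h3⟩ := mem_PKT.1 hf
  have hsy := sy_of_mem hf
  rw [Ph_apply]
  refine mem_PKT.2 ⟨?_, ?_, ?_, ?_⟩
  · rw [hmu]
    exact Submodule.sum_mem _ fun s _ => (rc_mem_HW (pm_inj s)).2
      (HW_mul ((rc_mem_HW i1_inj).2 h0) ((rc_mem_HW i2_inj).2 hB1))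
  · intro v hv
    obtain ⟨s, hs⟩ : ∃ s : Equiv.Perm (Fin (T + 3)),
        coeff v (rc m (Sum.map id s : σ ⊕ Fin (T + 3) → σ ⊕ Fin (T + 3))
          (rc m (i1 σ T) f * rc m (i2 σ T) B)) ≠ 0 := by
      by_contra h
      push Not at h
      apply hv
      rw [coeff_sum]
      exact Finset.sum_eq_zero fun s _ => h s
    obtain ⟨u, hu, h4, -⟩ := coeff_rc (pm_inj s) hs
    obtain ⟨x, y, hxy, hx, hy⟩ := coeff_mul_ne hu
    obtain ⟨x0, hx0, h5, h6⟩ := coeff_rc i1_inj hx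
    obtain ⟨y0, hy0, h7, h8⟩ := coeff_rc i2_inj hy
    refine ⟨fun j => ?_, fun j => ?_⟩
    · rw [← (h1 x0 hx0).1 j]
      apply Finset.sum_congr rfl
      intro i _
      have g1 := h4 i (Sum.inl j)
      have g2 := h5 i (Sum.inl j)
      have g3 := h8 i _ (i2_inl j)
      simp only [Sum.map_inl, id_eq, i1] at g1 g2
      rw [g1, ← hxy, Finsupp.add_apply, g2, g3, add_zero]
    · obtain ⟨j, rfl⟩ := s.surjective j
      have g1 : ∀ i, v (i, Sum.inr (s j)) = x (i, Sum.inr j) + y (i, Sum.inr j) := by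
        intro i
        have g1 := h4 i (Sum.inr j)
        simp only [Sum.map_inr] at g1
        rw [g1, ← hxy, Finsupp.add_apply]
      rw [Finset.sum_congr rfl fun i _ => g1 i]
      refine Fin.addCases (fun j => ?_) (fun j => ?_) j
      · have g2 : ∀ i, x (i, Sum.inr (Fin.castAdd 3 j)) + y (i, Sum.inr (Fin.castAdd 3 j)) =
            x0 (i, Sum.inr j) := by
          intro i
          have g3 := h5 i (Sum.inr j)
          simp only [i1, Sum.map_inr] at g3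
          rw [g3, h8 i _ (i2_cast j), add_zero]
        rw [Finset.sum_congr rfl fun i _ => g2 i]
        exact (h1 x0 hx0).2 j
      · have g2 : ∀ i, x (i, Sum.inr (Fin.natAdd T j)) + y (i, Sum.inr (Fin.natAdd T j)) =
            y0 (i, j) := by
          intro i
          have g3 := h7 i j
          simp only [i2] at g3
          rw [g3, h6 i _ (i1_nat j), zero_add]
        rw [Finset.sum_congr rfl fun i _ => g2 i]
        have g4 := hB2 y0 hy0 j
        omega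
  · intro e s he
    have g1 : rc m (Sum.map e id : σ ⊕ Fin (T + 3) → σ ⊕ Fin (T + 3))
        (rc m (i1 σ T) f * rc m (i2 σ T) B) = rc m (i1 σ T) f * rc m (i2 σ T) B := by
      rw [map_mul, rc_rc, rc_rc]
      congr 1
      · have g2 : (fun x => (Sum.map e id : σ ⊕ Fin (T + 3) → σ ⊕ Fin (T + 3)) (i1 σ T x)) =
            fun x => i1 σ T ((Sum.map e (1 : Equiv.Perm (Fin T)) : σ ⊕ Fin T → σ ⊕ Fin T) x) := by
          funext x
          rcases x with x | x
          · simp [i1]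
          · simp [i1]
        rw [g2, ← rc_rc]
        congr 1
        exact h2 e 1 he
    have g2 : ∀ s' : Equiv.Perm (Fin (T + 3)),
        rc m (Sum.map e s : σ ⊕ Fin (T + 3) → σ ⊕ Fin (T + 3))
          (rc m (Sum.map id s' : σ ⊕ Fin (T + 3) → σ ⊕ Fin (T + 3))
            (rc m (i1 σ T) f * rc m (i2 σ T) B)) =
        rc m (Sum.map id (s * s' : Equiv.Perm (Fin (T + 3))) :
          σ ⊕ Fin (T + 3) → σ ⊕ Fin (T + 3)) (rc m (i1 σ T) f * rc m (i2 σ T) B) := by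
      intro s'
      conv_rhs => rw [← g1]
      rw [rc_rc, rc_rc]
      congr 2
      funext x
      rcases x with x | x
      · simp
      · simp
    change rc m (Sum.map e s : σ ⊕ Fin (T + 3) → σ ⊕ Fin (T + 3)) _ = _
    rw [map_sum, Finset.sum_congr rfl fun s' _ => g2 s']
    exact Equiv.sum_comp (Equiv.mulLeft s) fun s' : Equiv.Perm (Fin (T + 3)) =>
      rc m (Sum.map id s' : σ ⊕ Fin (T + 3) → σ ⊕ Fin (T + 3))
        (rc m (i1 σ T) f * rc m (i2 σ T) B)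
  · intro i
    have h4 := fun s => tr_perm s i (tr_prod i (h3 i) (hB3 i))
    rw [Finset.sum_congr rfl fun l _ => map_sum _ _ _, Finset.sum_comm]
    exact Finset.sum_eq_zero fun s _ => h4 s

/-- The graded inequality for the spaces. -/
lemma area_pkt {S t : ℕ} {d : σ → ℕ} {mu mu' om : Fin m → ℕ} (hS : 3 ≤ S) (hmu : mu' = mu + om)
    {B : MvPolynomial (Fin m × Fin 3) ℂ} (hB1 : B ∈ HW m (Fin 3) om) (hB2 : Cb 2 B)
    (hB3 : ∀ i, ∑ j : Fin 3, pderiv (i, j) B = 0) (hB4 : L3 m σ B ≠ 0) :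
    Module.finrank ℂ (PKT m S σ d (t + 1) mu) + Module.finrank ℂ (PKT m S σ d (t + 3) mu') ≤
      Module.finrank ℂ (PKT m S σ d t mu) + Module.finrank ℂ (PKT m S σ d (t + 4) mu') := by
  have hk1 : Module.finrank ℂ (KerT m S σ d t mu) = Module.finrank ℂ (PKT m S σ d t mu) :=
    kerStmt m S σ d t mu (by omega)
  have hk2 : Module.finrank ℂ (KerT m S σ d (t + 3) mu') =
      Module.finrank ℂ (PKT m S σ d (t + 3) mu') := kerStmt m S σ d (t + 3) mu' (by omega)
  let F : PKT m S σ d (t + 1) mu →ₗ[ℂ] PKT m S σ d (t + 1 + 3) mu' :=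
    (Ph σ (t + 1) B).restrict fun f hf => Ph_mem hS hmu hB1 hB2 hB3 hf
  let K' : Submodule ℂ (PKT m S σ d (t + 1 + 3) mu') :=
    (KerT m S σ d (t + 3) mu').comap (PKT m S σ d (t + 1 + 3) mu').subtype
  have hle : KerT m S σ d (t + 3) mu' ≤ PKT m S σ d (t + 1 + 3) mu' := fun x hx => hx.1
  have hK' : Module.finrank ℂ K' = Module.finrank ℂ (KerT m S σ d (t + 3) mu') :=
    (Submodule.comapSubtypeEquivOfLe hle).finrank_eq
  have : FiniteDimensional ℂ (KerT m S σ d t mu) :=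
    Submodule.finiteDimensional_of_le (S₂ := PKT m S σ d (t + 1) mu) fun _ h => h.1
  let G := K'.mkQ ∘ₗ F
  have hr := LinearMap.finrank_range_add_finrank_ker G
  have hrg : Module.finrank ℂ (LinearMap.range G) ≤
      Module.finrank ℂ (PKT m S σ d (t + 1 + 3) mu' ⧸ K') := Submodule.finrank_le _
  have hq := Submodule.finrank_quotient_add_finrank K'
  have hker : Module.finrank ℂ (LinearMap.ker G) ≤ Module.finrank ℂ (KerT m S σ d t mu) := by
    let I : LinearMap.ker G →ₗ[ℂ] KerT m S σ d t mu :=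
      ((PKT m S σ d (t + 1) mu).subtype ∘ₗ (LinearMap.ker G).subtype).codRestrict _ (by
        intro f
        refine ⟨f.1.2, ?_⟩
        apply L_inj (sy_of_mem f.1.2)
        have g1 : F f.1 ∈ K' := by
          have g2 := f.2
          rw [LinearMap.mem_ker] at g2
          exact (Submodule.Quotient.mk_eq_zero K').1 g2
        have g2 : L m σ (t + 1 + 3) (Ph σ (t + 1) B f.1.1) = 0 := L_ker g1.2
        rw [L_Ph] at g2
        rcases smul_eq_zero.1 g2 with g3 | g3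
        · exact absurd g3 Fintype.card_ne_zero
        · rcases mul_eq_zero.1 g3 with g4 | g4
          · exact g4
          · exact absurd g4 hB4)
    apply LinearMap.finrank_le_finrank_of_injective (f := I)
    intro x y hxy
    apply Subtype.ext
    apply Subtype.ext
    have h := congrArg Subtype.val hxy
    exact h
  change _ ≤ _ + Module.finrank ℂ (PKT m S σ d (t + 1 + 3) mu')
  rw [← hk1, ← hk2]
  omega

end main

/-- **(V1)** -/
theorem areaT : AreaT := by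
  intro m S mu mu' kap t hS hm hmu
  obtain ⟨r0, hr0⟩ : ∃ r0 : Fin m, (r0 : ℕ) = 0 := ⟨⟨0, by omega⟩, rfl⟩
  obtain ⟨r1, hr1⟩ : ∃ r1 : Fin m, (r1 : ℕ) = 1 := ⟨⟨1, by omega⟩, rfl⟩
  have h01 : r0 ≠ r1 := by
    rintro rfl
    omega
  have hA : Ar r0 r1 ∈ HW m (Fin 3) (fun i : Fin m => if (i : ℕ) < 2 then 1 else 0) := by
    rw [mem_HW_iff_isWeightedHomogeneous]
    refine ⟨Ar_wt _ _ _ ?_, fun s i hsi => Ar_row _ _ h01 s i ?_ ?_⟩
    · funext i
      rw [Pi.add_apply, Pi.single_apply, Pi.single_apply]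
      by_cases h0 : i = r0
      · rw [if_pos h0, if_neg fun h => h01 (h0.symm.trans h), if_pos (by rw [h0]; omega)]
        rfl
      · have h0' : (i : ℕ) ≠ 0 := fun h => h0 (Fin.ext (h.trans hr0.symm))
        by_cases h1 : i = r1
        · rw [if_neg h0, if_pos h1, if_pos (by rw [h1]; omega)]
        · have h1' : (i : ℕ) ≠ 1 := fun h => h1 (Fin.ext (h.trans hr1.symm))
          rw [if_neg h0, if_neg h1, if_neg (by omega)]
          rfl
    · intro h1
      apply Fin.ext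
      have h := Fin.lt_def.1 hsi
      rw [← h1] at h
      omega
    · intro h0
      have h := Fin.lt_def.1 hsi
      rw [← h0] at h
      omega
  refine area_pkt hS (om := (fun i : Fin m => if (i : ℕ) < 2 then 1 else 0) +
    fun i : Fin m => if (i : ℕ) < 2 then 1 else 0) ?_ (HW_mul hA hA)
    ((Ar_cb _ _).mul (Ar_cb _ _)) ?_ (L3_ne _ _ _ h01)
  · funext i
    rw [hmu i]
    simp only [Pi.add_apply]
    split_ifs <;> rfl
  · intro i
    have h1 := Ar_tr _ _ h01 i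
    rw [Finset.sum_congr rfl fun j _ => pderiv_mul, Finset.sum_add_distrib, ← Finset.sum_mul,
      ← Finset.mul_sum, h1, zero_mul, mul_zero, add_zero]

end Vale.Agent.P181.SV.H376
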