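import Vale.Agent.P181.DU8.MainU
import Vale.Agent.P181.SV.Defs2

set_option autoImplicit false

/-!
# P181, SV (V2X): the assembly `AsmNX`, every `b > a`
-/

namespace Vale.Agent.P181.SV.H376

open MvPolynomial
open Vale.Agent.P181.T4 (HW ex low ex_of_lt ex_anti low_anti)
open Vale.Agent.P181.H280 (plethMult hwSpace)
open Vale.Agent.P181.H463 (gt)
open Vale.Agent.P181.H503 (gt_congr ex_low)
open Vale.Agent.P181.SZ
open Vale.Agent.P181.PL (PieS dn)
open Vale.Agent.P181.PL5 (gt_branch ex_val)
open Vale.Agent.P181.DG Vale.Agent.P181.DU Vale.Agent.P181.DU.S317 Vale.Agent.P181.DX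
open Vale.Agent.P181.SV
open Vale.Agent.P181.DG8 (mem_KT card_KT tel sum_pairs dn_one disG markedR)
open Vale.Agent.P181.DU8

/-- `AreaT`, iterated. -/
lemma iter (hAr : AreaT) {m S : ℕ} (hS : 3 ≤ S) (hm : 2 ≤ m) (kap : Multiset ℕ) :
    ∀ (q : ℕ) (mu mu' : Fin m → ℕ) (t : ℕ),
      (∀ i, mu' i = mu i + if (i : ℕ) < 2 then 2 * q else 0) →
      NT m S mu kap (t + 1) + NT m S mu' kap (t + 3 * q) ≤
        NT m S mu kap t + NT m S mu' kap (t + 3 * q + 1) := by
  intro q
  induction q with
  | zero =>
    intro mu mu' t h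
    have h1 : mu' = mu := by
      funext i
      rw [h i]
      split_ifs <;> omega
    rw [h1, mul_zero, add_zero, add_comm]
  | succ q ih =>
    intro mu mu' t h
    have h1 := ih mu (fun i => mu i + if (i : ℕ) < 2 then 2 * q else 0) t (fun _ => rfl)
    have h2 := hAr m S (fun i => mu i + if (i : ℕ) < 2 then 2 * q else 0) mu' kap (t + 3 * q)
      hS hm (fun i => by
        rw [h i]
        split_ifs <;> omega)
    have e1 : t + 3 * (q + 1) = t + 3 * q + 3 := by ring
    have e2 : t + 3 * q + 3 + 1 = t + 3 * q + 4 := by ring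
    rw [e1, e2]
    omega

open scoped Classical in
/-- The marks: from the letter `y` to the good states `({s}, a)`. -/
lemma core_markN {N N' : Multiset ℕ → ℕ → ℕ} {w S a b : ℕ}
    (hD : DisG S fun k t => N' k t - N' k (t - 1)) {t1 q y : ℕ}
    (hstep : ∀ k t, 1 ≤ t → N' k t - N' k (t - 1) ≤ N k (t + 3 * q) - N k (t + 3 * q - 1))
    (hS : 1 ≤ S) (ht1 : t1 + 3 + 3 * q ≤ a) (hya : y ≤ a) (hyq : a + S ≤ y + 3 * q)
    (haw : a ≤ w) (hab : a + 1 ≤ b) :
    ∑ t ∈ Finset.Ioc 0 t1, (N' {y} t - N' {y} (t - 1)) ≤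
      ∑ p ∈ (KT w S ×ˢ Finset.range (a + 2)).filter (GoodV a b),
        (N p.1 p.2 - N p.1 (p.2 - 1)) := by
  calc ∑ t ∈ Finset.Ioc 0 t1, (N' {y} t - N' {y} (t - 1))
      ≤ ∑ t ∈ Finset.Ioc 0 t1, (N {y + 3 * q + t - a} a - N {y + 3 * q + t - a} (a - 1)) := by
        apply Finset.sum_le_sum
        intro t ht
        rw [Finset.mem_Ioc] at ht
        have h1 := hD 0 {y + 3 * q + t - a} y (a - 3 * q - t) t (by omega) (by omega)
          (Multiset.nodup_singleton _)
          (fun x hx => by
            rw [Multiset.mem_singleton] at hx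
            exact ⟨by omega, Multiset.notMem_zero _, by omega⟩)
          (by rw [Multiset.sum_singleton]; omega)
          (Or.inr ⟨by omega, by rw [Multiset.sum_singleton]; omega⟩)
        rw [add_zero] at h1
        have h2 : t + (a - 3 * q - t) = a - 3 * q := by omega
        simp only [h2] at h1
        have h3 := hstep {y + 3 * q + t - a} (a - 3 * q) (by omega)
        have h4 : a - 3 * q + 3 * q = a := by omega
        rw [h4] at h3
        exact h1.trans h3
    _ = ∑ p ∈ (Finset.Ioc 0 t1).image (fun t => (({y + 3 * q + t - a} : Multiset ℕ), a)),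
        (N p.1 p.2 - N p.1 (p.2 - 1)) := by
        rw [Finset.sum_image]
        intro t ht t' ht' h
        have h1 : (({y + 3 * q + t - a} : Multiset ℕ), a) =
          (({y + 3 * q + t' - a} : Multiset ℕ), a) := h
        rw [Prod.mk.injEq, Multiset.singleton_inj] at h1
        have h2 := h1.1
        omega
    _ ≤ _ := by
        apply Finset.sum_le_sum_of_subset
        intro p hp
        rw [Finset.mem_image] at hp
        obtain ⟨t, ht, rfl⟩ := hp
        rw [Finset.mem_Ioc] at ht
        rw [Finset.mem_filter, Finset.mem_product, Finset.mem_range, mem_KT hS]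
        refine ⟨⟨⟨?_, ?_⟩, by simp only; omega⟩, ?_, ?_, ?_, ?_⟩
        · simp only [Multiset.sum_singleton]
          omega
        · intro x hx
          simp only [Multiset.mem_singleton] at hx
          omega
        · intro x hx
          simp only [Multiset.mem_singleton] at hx
          omega
        · simp only [Multiset.card_singleton]
          omega
        · simp only
          omega
        · simp only [Multiset.card_singleton]
          omega

open scoped Classical in
/-- **(V2X)** -/
theorem asmNX (hAr : AreaT) (hMono : MonoT) (hUp : UpT) (hLow : LowU) (hDis : DisT) (hSh : ShiftT)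
    (hFew : FewT) (hM : MarkT) (hFlW : FlowW) (hFlX : FlowX) (hU : UpperS) (hUA : UpperA) (hLA : LowerA)
    (hP : PieS) : AsmNX := by
  intro a b n R X Z K w a0 b0 q y lam nu hlam hsum hpos hR3 hRn hw hZ1 hZ2 hK hKX hXZ hwX hKa hab
    hX3 hZa hbig haw3 hb0 hya hyq hle hst hwnu hfinal
  obtain ⟨m, rfl⟩ : ∃ m, n = m + 1 := ⟨n - 1, by omega⟩
  have hw' : ∑ i, tl lam i = w := by rw [hw, dn_one]
  rw [dn_one] at hwnu
  obtain ⟨S, hS⟩ : ∃ S, S = (Z + 1) * X := ⟨_, rfl⟩
  have hX1 : 1 ≤ X := by omega
  have hZ0 : 1 ≤ Z := by omega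
  have hS1 : Z + 1 ≤ S := by
    rw [hS]
    exact Nat.le_mul_of_pos_right _ (by omega)
  have hSX : X ≤ S := by
    rw [hS]
    exact Nat.le_mul_of_pos_left _ (by omega)
  have hKS : S ≤ K * S := Nat.le_mul_of_pos_left _ (by omega)
  have hKa' : 100 * (K * S) ≤ a := by
    rw [hS]
    calc 100 * (K * ((Z + 1) * X)) = 100 * K * ((Z + 1) * X) := by ring
      _ ≤ a := hKa
  have haw : a ≤ w := by omega
  rw [← hS] at hyq
  have hS2 : (Z + 1) * 4 ≤ S := by
    rw [hS]
    exact Nat.mul_le_mul_left _ (by omega)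
  have ha1 : 1 ≤ a := by omega
  have hS4 : 4 ≤ S := by omega
  -- `a < b`
  have hab' : a + 1 ≤ b := hab
  -- the size of the contents
  have hcard : ∀ k ∈ KT w S, 3 * Multiset.card k + 1 ≤ Z := by
    intro k hk
    have h1 := card_KT (by omega) hk
    have h2 : Multiset.card k * X < Z + 1 := by
      by_contra h
      have h3 : (Z + 1) * (Z + 1) ≤ (Z + 1) * (Multiset.card k * X) :=
        Nat.mul_le_mul_left _ (by omega)
      have h4 : (Z + 1) * (Multiset.card k * X) = Multiset.card k * S := by rw [hS]; ring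
      have h5 : (Z + 1) ^ 2 = (Z + 1) * (Z + 1) := sq _
      omega
    have h3 : Multiset.card k * 32 ≤ Multiset.card k * X := Nat.mul_le_mul_left _ (by omega)
    omega
  -- `J`
  have e1 : Z * X ^ 2 = Z * X * X := by ring
  have e2 : Z * X * (16 * K + 16) ≤ Z * X * X := Nat.mul_le_mul_left _ hKX
  have e3 : Z * X * (16 * K + 16) = 16 * (K * (Z * X)) + 16 * (Z * X) := by ring
  have e4 : K * S = K * (Z * X) + K * X := by rw [hS]; ring
  have e4' : S = Z * X + X := by rw [hS]; ring
  have e5 : K * X ≤ K * (Z * X) := Nat.mul_le_mul_left _ (Nat.le_mul_of_pos_left _ hZ0)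
  have e5' : X ≤ Z * X := Nat.le_mul_of_pos_left _ hZ0
  have e6 : 1 ≤ Z * X := Nat.mul_pos hZ0 hX1
  have e7 : (2 * (3 * K) + 3) * S = 6 * (K * S) + 3 * S := by ring
  have e7' : (2 * (3 * K) + 5) * S = 6 * (K * S) + 5 * S := by ring
  obtain ⟨J, hJ, hJ1, hJ2⟩ : ∃ J, ((m + 1 ≤ Z * X ^ 2 → J = Z * X ^ 2) ∧
      (¬ m + 1 ≤ Z * X ^ 2 → J + 1 = Z * X ^ 2)) ∧ J ≤ Z * X ^ 2 ∧ Z * X ^ 2 ≤ J + 1 := by
    by_cases h : m + 1 ≤ Z * X ^ 2
    · exact ⟨Z * X ^ 2, ⟨fun _ => rfl, fun h' => absurd h h'⟩, le_rfl, by omega⟩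
    · exact ⟨Z * X ^ 2 - 1, ⟨fun h' => absurd h' h, fun _ => by omega⟩, by omega, by omega⟩
  have hSJ : S ≤ J := by omega
  have hZJ : Z ≤ J := by omega
  -- the functions
  obtain ⟨N, hN⟩ : ∃ N : Multiset ℕ → ℕ → ℕ, N = NT m S (tl lam) := ⟨_, rfl⟩
  have hNm : ∀ k t, N k t ≤ N k (t + 1) := fun k t => by
    rw [hN]
    exact hMono m S (tl lam) k t (by omega)
  have hDG : DisG S fun k t => N k t - N k (t - 1) := by
    rw [hN]
    exact disG hMono hDis hS4 (tl lam)
  have hup := (hUA a b m lam).trans (hUp a b m S (tl lam) (by omega))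
  -- low degree
  have hdeg : 2 * ∑ i, tl lam i ≤ b * (S - 1) := by
    rw [hw']
    have g1 : (Z + 1) ^ 2 = (Z + 1) * (Z + 1) := sq _
    have g2 : 2 * (Z + 1) * (Z + 1) ≤ b * (S - 1) := Nat.mul_le_mul (by omega) (by omega)
    have g3 : 2 * (Z + 1) * (Z + 1) = 2 * ((Z + 1) * (Z + 1)) := by ring
    omega
  have hSG : ShG fun k t => N k t - N k (t - 1) := by
    rw [hN]
    exact shG hMono hSh (by omega) (tl lam)
  have hlow := (hLow a b m S (tl lam) (by omega) (by omega) hdeg).trans (hLA a b m lam hsum)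
  have hfew := hFew m S J (tl lam) (by omega)
  rw [hw', ← hN] at hup hlow hfew
  have hc1 : ∀ k ∈ KT w S, Multiset.card k ≤ a := by
    intro k hk
    have := hcard k hk
    omega
  have hc2 : ∀ k ∈ KT w S, Multiset.card k ≤ J := by
    intro k hk
    have := hcard k hk
    omega
  have h1 := core_low (b := b) hNm (by omega) hc1
  have h2 := core_upW (b := b) hNm (show J ≤ a by omega) hc2
  have p4 : w * X ^ 2 ≤ S ^ 2 := by
    rw [hS, mul_pow]
    exact Nat.mul_le_mul_right _ hZ2.le
  have p5 : 4 * ((w + 1) * (a + 2) ^ 2) ≤ X ^ (3 * K) := by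
    have f1 : X ^ (3 * K) = (X ^ K) ^ 3 := by rw [mul_comm, pow_mul]
    have f2 : (4 * w) ^ 3 ≤ (X ^ K) ^ 3 := Nat.pow_le_pow_left hwX 3
    have f3 : (w + 1) * (a + 2) ^ 2 ≤ (2 * w) * w ^ 2 :=
      Nat.mul_le_mul (by omega) (Nat.pow_le_pow_left (by omega) 2)
    have f5 : (4 * w) ^ 3 = 64 * (w * w * w) := by ring
    have f6 : (2 * w) * w ^ 2 = 2 * (w * w * w) := by ring
    rw [f1]
    omega
  have h3 : 3 * ∑ p ∈ (KT w S ×ˢ Finset.range (a + 2)).filter (BadW a b (J + 1)),
      (N p.1 p.2 - N p.1 (p.2 - 1)) ≤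
        ∑ p ∈ (KT w S ×ˢ Finset.range (a + 2)).filter (GoodW a b),
          (N p.1 p.2 - N p.1 (p.2 - 1)) := by
    by_cases hbX : b ≤ a + X
    · refine hFlX (fun k t => N k t - N k (t - 1)) a b (J + 1) S (3 * K) X w hDG hSG (by omega)
        hS4 (by omega) (by omega) hSX p4 p5 (by omega) (by omega) ?_ ?_ ?_ hab' hbX
      · -- `w * X ^ 4 ≤ S * a`
        calc w * X ^ 4 = (w * X ^ 2) * X ^ 2 := by ring
          _ ≤ S ^ 2 * X ^ 2 := Nat.mul_le_mul_right _ p4
          _ = S * ((Z + 1) * X ^ 3) := by rw [hS]; ring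
          _ ≤ S * a := Nat.mul_le_mul_left _ hX3
      · -- `w * X ^ 3 ≤ a ^ 2`
        calc w * X ^ 3 ≤ (Z + 1) ^ 2 * X ^ 3 := Nat.mul_le_mul_right _ hZ2.le
          _ ≤ (Z + 1) ^ 2 * X ^ 6 := Nat.mul_le_mul_left _
              (Nat.pow_le_pow_right hX1 (by norm_num))
          _ = ((Z + 1) * X ^ 3) ^ 2 := by ring
          _ ≤ a ^ 2 := Nat.pow_le_pow_left hX3 2
      · -- `100 * (3 * K * S) ≤ a`
        have f1 : 300 * K ≤ X * X := by
          have : (16 * K + 16) * 32 ≤ X * X := Nat.mul_le_mul hKX (by omega)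
          omega
        calc 100 * (3 * K * S) = 300 * K * ((Z + 1) * X) := by rw [hS]; ring
          _ ≤ X * X * ((Z + 1) * X) := Nat.mul_le_mul_right _ f1
          _ = (Z + 1) * X ^ 3 := by ring
          _ ≤ a := hX3
    · exact hFlW (fun k t => N k t - N k (t - 1)) a b (J + 1) S (3 * K) X w hDG hSG (by omega)
        hS4 (by omega) p4 p5 (by omega) (by omega) (by
          have f1 : (16 * ((Z + 1) * X)) ^ 2 ≤ a ^ 2 := by
            apply Nat.pow_le_pow_left
            rw [← hS]
            omega
          have f2 : 16 * (w * X) ≤ (16 * ((Z + 1) * X)) ^ 2 := by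
            calc 16 * (w * X) ≤ 256 * ((Z + 1) ^ 2 * X ^ 2) := by
                  apply Nat.mul_le_mul (by norm_num)
                  exact Nat.mul_le_mul hZ2.le (Nat.le_self_pow (by norm_num) X)
              _ = (16 * ((Z + 1) * X)) ^ 2 := by ring
          exact f2.trans f1) (by omega)
  have hGW : GoodW = GoodV := rfl
  rw [hGW] at h3
  set Good := ∑ p ∈ (KT w S ×ˢ Finset.range (a + 2)).filter (GoodV a b),
    (N p.1 p.2 - N p.1 (p.2 - 1)) with hGood
  set Bad := ∑ p ∈ (KT w S ×ˢ Finset.range (a + 2)).filter (BadW a b (J + 1)),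
    (N p.1 p.2 - N p.1 (p.2 - 1)) with hBad
  set Few := ∑ k ∈ (KT w S).filter (fun k => Multiset.card k ≤ J), N k (J - Multiset.card k)
    with hFewdef
  set A0 := ∑ k ∈ (KT w S).filter (fun k => ∀ x ∈ k, x ≤ a), N k (a - Multiset.card k)
    with hA0
  have h3' : 3 * Bad ≤ Good := h3
  -- the few letters against the good states
  have hfg : 2 * Few ≤ Good := by
    by_cases hnJ : m + 1 ≤ Z * X ^ 2
    · have hJe := hJ.1 hnJ
      have hbig' := hfinal hnJ
      -- the smaller shape
      obtain ⟨lam', hlam'⟩ : ∃ lam' : Fin (m + 1) → ℕ, lam' = fun i : Fin (m + 1) =>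
        if 1 ≤ (i : ℕ) ∧ (i : ℕ) < 3 then lam i - 2 * q else lam i := ⟨_, rfl⟩
      have htl : ∀ i : Fin m, tl lam i = tl lam' i + if (i : ℕ) < 2 then 2 * q else 0 := by
        intro i
        have h1 := hle i.succ (by simp)
        simp only [tl, hlam', Fin.val_succ] at h1 ⊢
        by_cases hi : (i : ℕ) < 2
        · rw [if_pos (by omega)] at h1
          rw [if_pos ⟨by omega, by omega⟩, if_pos hi]
          omega
        · rw [if_neg (by omega), if_neg hi, add_zero]
      have hsum' : w = ∑ i, tl lam' i + 4 * q := by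
        rw [← hw', Finset.sum_congr rfl fun i _ => htl i, Finset.sum_add_distrib]
        congr 1
        obtain ⟨m', hm'⟩ : ∃ m', m = m' + 2 := ⟨m - 2, by omega⟩
        subst hm'
        rw [Fin.sum_univ_succ, Fin.sum_univ_succ]
        simp
        omega
      have hexl : ∀ k, 2 ≤ k → ex (tl lam') k = ex lam (k + 1) := by
        intro k hk
        rw [ex_tl]
        unfold ex
        by_cases hkm : k + 1 < m + 1
        · rw [dif_pos hkm, dif_pos hkm, hlam']
          simp only
          rw [if_neg (by omega)]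
        · rw [dif_neg hkm, dif_neg hkm]
      have hle' : ∀ i : Fin m, tl nu i ≤ tl lam' i := by
        intro i
        have h1 := hle i.succ (by simp)
        have h2 := htl i
        simp only [tl, Fin.val_succ] at h1 h2 ⊢
        by_cases hi : (i : ℕ) < 2
        · rw [if_pos (by omega)] at h1
          rw [if_pos hi] at h2
          omega
        · rw [if_neg (by omega)] at h1
          rw [if_neg hi] at h2
          omega
      have hst' : ∀ i : Fin m, ex (tl lam') ((i : ℕ) + 1) ≤ tl nu i := by
        intro i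
        by_cases him : (i : ℕ) + 1 < m
        · have h1 := hst i.succ (by simp)
          rw [Fin.val_succ, ← ex_tl, ex_of_lt _ him, htl] at h1
          rw [ex_of_lt _ him]
          simp only at h1
          by_cases hi : (i : ℕ) + 1 < 2
          · rw [if_pos hi] at h1
            change _ ≤ nu i.succ
            omega
          · rw [if_neg hi] at h1
            change _ ≤ nu i.succ
            omega
        · unfold ex
          rw [dif_neg him]
          exact Nat.zero_le _
      have hanti' : Antitone (tl lam') := by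
        have h1 : ∀ i, ex (tl lam') (i + 1) ≤ ex (tl lam') i := by
          intro i
          by_cases him : i < m
          · rw [ex_of_lt (tl lam') him]
            exact (hst' ⟨i, him⟩).trans (hle' ⟨i, him⟩)
          · unfold ex
            rw [dif_neg (by omega)]
            exact Nat.zero_le _
        have h2 := antitone_nat_of_succ_le h1
        intro i j hij
        have h3 := h2 (show (i : ℕ) ≤ (j : ℕ) from hij)
        rw [ex_val, ex_val] at h3
        exact h3
      obtain ⟨N', hN'⟩ : ∃ N' : Multiset ℕ → ℕ → ℕ, N' = NT m S (tl lam') := ⟨_, rfl⟩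
      have hNm' : ∀ k t, N' k t ≤ N' k (t + 1) := fun k t => by
        rw [hN']
        exact hMono m S (tl lam') k t (by omega)
      have hDG' : DisG S fun k t => N' k t - N' k (t - 1) := by
        rw [hN']
        exact disG hMono hDis hS4 (tl lam')
      have hstep : ∀ k t, 1 ≤ t →
          N' k t - N' k (t - 1) ≤ N k (t + 3 * q) - N k (t + 3 * q - 1) := by
        intro k t ht
        obtain ⟨s, rfl⟩ : ∃ s, t = s + 1 := ⟨t - 1, by omega⟩
        have h1 := iter hAr (S := S) (by omega) (by omega) k q (tl lam') (tl lam) s htl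
        rw [← hN, ← hN'] at h1
        have h2 := hNm' k s
        have h3 := hNm k (s + 3 * q)
        have e1 : s + 1 - 1 = s := by omega
        have e2 : s + 1 + 3 * q = s + 3 * q + 1 := by omega
        have e3 : s + 3 * q + 1 - 1 = s + 3 * q := by omega
        rw [e1, e2, e3]
        omega
      have hmark := markedR (b0 := b0) hU hP hM (m := m) (S := S) (a0 := a0)
        (w := ∑ i, tl lam' i) (a := y) (lam := lam') (nu := nu) hS4 (by
          by_contra h
          have g1 : S * S ≤ a0 * (a0 + 2) := Nat.mul_le_mul (by omega) (by omega)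
          have g2 : (Z + 1) * (Z + 1) ≤ S * S := Nat.mul_le_mul hS1 hS1
          have g3 : (Z + 1) ^ 2 = (Z + 1) * (Z + 1) := sq _
          omega) (by omega) rfl (by omega) hle' hst'
      rw [← hN'] at hmark
      have hmk : N' {y} (3 * b0) ≤ N' {y} 0 + Good := by
        have g1 := tel (hNm' {y}) (Nat.zero_le (3 * b0))
        have g2 := core_markN (t1 := 3 * b0) (w := w) hDG' hstep (show 1 ≤ S by omega)
          (by omega) hya hyq haw hab'
        omega
      have hfew' := hFew m S J (tl lam') (by omega)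
      rw [← hN'] at hfew'
      have hsf : N' {y} 0 ≤ Module.finrank ℂ (HW m (Fin J) (tl lam')) := by
        have g1 : ({y} : Multiset ℕ) ∈
            (KT (∑ i, tl lam' i) S).filter (fun k => Multiset.card k ≤ J) := by
          rw [Finset.mem_filter, mem_KT (by omega)]
          refine ⟨⟨?_, ?_⟩, ?_⟩
          · rw [Multiset.sum_singleton]
            omega
          · intro x hx
            rw [Multiset.mem_singleton] at hx
            omega
          · rw [Multiset.card_singleton]
            omega
        have g2 := Finset.single_le_sum (f := fun k : Multiset ℕ => N' k (J - Multiset.card k))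
          (fun _ _ => Nat.zero_le _) g1
        simp only [Multiset.card_singleton] at g2
        have g3 : N' {y} 0 ≤ N' {y} (J - 1) :=
          monotone_nat_of_le_succ (hNm' {y}) (Nat.zero_le _)
        exact g3.trans (g2.trans hfew')
      have hcut' := hw_cut (J := J) (show R ≤ m by omega) (tl lam') hanti' w (fun i => by
        have g1 := Finset.single_le_sum (f := tl lam') (fun _ _ => Nat.zero_le _)
          (Finset.mem_univ i)
        omega)
      have hgt' : gt (m - R) J (low R (tl lam')) =
          gt (m + 1 - (R + 1)) (Z * X ^ 2) (low (R + 1) lam) := by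
        rw [hJe]
        apply gt_congr (by omega)
        intro i
        rw [ex_low, ex_low, hexl _ (by omega)]
        congr 1
        omega
      rw [hgt'] at hcut'
      have hbr : gt (m + 1 - (R + 1)) (Z * X ^ 2) (low (R + 1) lam) ≤
          gt (m + 1 - R) (Z * X ^ 2 + 1) (low R nu) := by
        apply gt_branch
        · intro i hi hin
          have h1 := hst ⟨i, hin⟩ (by simp; omega)
          simp only at h1
          rw [if_neg (by omega), add_zero, ← ex_val nu ⟨i, hin⟩] at h1
          exact h1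
        · intro i hi hin
          have h1 := hle ⟨i, hin⟩ (by simp; omega)
          simp only at h1
          rw [if_neg (by omega), add_zero, ← ex_val nu ⟨i, hin⟩, ← ex_val lam ⟨i, hin⟩] at h1
          exact h1
      have hcut := hw_cut (J := J) (show R ≤ m by omega) (tl lam) (tl_anti hlam) w (fun i => by
        rw [← hw']
        exact Finset.single_le_sum (f := tl lam) (fun _ _ => Nat.zero_le _)
          (Finset.mem_univ i))
      have hgt : gt (m - R) J (low R (tl lam)) =
          gt (m + 1 - (R + 1)) (Z * X ^ 2) (low (R + 1) lam) := by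
        rw [hJe]
        apply gt_congr (by omega)
        intro i
        rw [ex_low, ex_low, ex_tl]
        congr 1
        omega
      rw [hgt] at hcut
      obtain ⟨B, hB⟩ : ∃ B, B =
        (w + 1) ^ (R * J) * gt (m + 1 - R) (Z * X ^ 2 + 1) (low R nu) := ⟨_, rfl⟩
      have hF1 : Few ≤ B := by
        rw [hB]
        exact hfew.trans (hcut.trans (Nat.mul_le_mul_left _ hbr))
      have hF1' : N' {y} 0 ≤ B := by
        rw [hB]
        exact hsf.trans (hcut'.trans (Nat.mul_le_mul_left _ hbr))
      have hpw : 2 * (w + 1) ^ (R * J) ≤ (w + 1) ^ ((R + 1) * (Z * X ^ 2)) := by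
        rw [← hJe, add_mul, one_mul, pow_add, mul_comm]
        apply Nat.mul_le_mul_left
        calc 2 ≤ w + 1 := by omega
          _ ≤ (w + 1) ^ J := Nat.le_self_pow (by omega) _
      have hF2 : 4 * B ≤ 2 * ((w + 1) ^ ((R + 1) * (Z * X ^ 2)) *
          gt (m + 1 - R) (Z * X ^ 2 + 1) (low R nu)) := by
        calc 4 * B = 2 * (2 * (w + 1) ^ (R * J) *
              gt (m + 1 - R) (Z * X ^ 2 + 1) (low R nu)) := by rw [hB]; ring
          _ ≤ _ := Nat.mul_le_mul_left _ (Nat.mul_le_mul_right _ hpw)
      omega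
    · have hpos : ∀ i, 0 < lam i := hpos.resolve_right hnJ
      have hJe := hJ.2 hnJ
      rw [hw_zero (by omega) (tl lam) (tl_anti hlam) (fun i => hpos _)] at hfew
      omega
  have hup' : plethMult a b (m + 1) lam ≤ A0 + (Few + Bad) := le_trans (by convert hup) h2
  have hlow' : A0 + Good ≤ plethMult b a (m + 1) lam := le_trans h1 (by convert hlow)
  omega

end Vale.Agent.P181.SV.H376
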