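import Vale.Agent.P181.DGx.H831.Ker

set_option autoImplicit false

/-!
# P181, SV: the letters of the small columns, an empty small column gives zero
-/

namespace Vale.Agent.P181.SV.H376

open MvPolynomial
open Vale.Agent.P181.SZT0 (rc inj_pr)
open Vale.Agent.P181.DGx.H831 (Sy pm pm_inl pm_inr coeff_pm pm_inj)

/-- Two finite families with the same multiset of values differ by a bijection. -/
lemma exists_equiv' {τ τ' β : Type} [Fintype τ] [Fintype τ'] (g : τ → β) (g' : τ' → β)
    (h : Finset.univ.val.map g = Finset.univ.val.map g') :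
    ∃ e : τ ≃ τ', ∀ x, g' (e x) = g x := by
  classical
  have hc : ∀ n, Nonempty ({x // g x = n} ≃ {x // g' x = n}) := by
    intro n
    refine ⟨Fintype.equivOfCardEq ?_⟩
    rw [Fintype.card_subtype, Fintype.card_subtype]
    have h1 := congrArg (Multiset.count n) h
    rw [Multiset.count_map, Multiset.count_map] at h1
    have h2 : (Finset.univ.filter fun x => g x = n).card
        = Multiset.card (Multiset.filter (fun a => n = g a) Finset.univ.val) := by
      rw [Finset.card_def, Finset.filter_val]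
      congr 2
      funext a
      exact propext eq_comm
    have h3 : (Finset.univ.filter fun x => g' x = n).card
        = Multiset.card (Multiset.filter (fun a => n = g' a) Finset.univ.val) := by
      rw [Finset.card_def, Finset.filter_val]
      congr 2
      funext a
      exact propext eq_comm
    rw [h2, h3]
    exact h1
  let φ := fun n => Classical.choice (hc n)
  let e : τ ≃ τ' := (Equiv.sigmaFiberEquiv g).symm.trans
    ((Equiv.sigmaCongrRight φ).trans (Equiv.sigmaFiberEquiv g'))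
  refine ⟨e, fun x => ?_⟩
  exact (φ (g x) ⟨x, rfl⟩).2

section letters

variable {m : ℕ} {σ : Type} [Fintype σ]

/-- The letter ring. -/
abbrev LR (m : ℕ) (σ : Type) : Type := MvPolynomial ((Fin m × σ) ⊕ (Fin m → ℕ)) ℂ

open scoped Classical in
/-- The letter of a small column. -/
noncomputable def Lt {m : ℕ} (σ : Type) (α : Fin m → ℕ) : LR m σ :=
  if α = 0 then 0 else X (Sum.inr α)

/-- The image of a monomial. -/
noncomputable def Ev {T : ℕ} (v : Fin m × (σ ⊕ Fin T) →₀ ℕ) : LR m σ :=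
  (∏ p : Fin m × σ, X (Sum.inl p) ^ v (p.1, Sum.inl p.2)) *
    ∏ j : Fin T, Lt σ fun i => v (i, Sum.inr j)

/-- The map to the letter ring. -/
noncomputable def L (m : ℕ) (σ : Type) [Fintype σ] (T : ℕ) :
    MvPolynomial (Fin m × (σ ⊕ Fin T)) ℂ →ₗ[ℂ] LR m σ :=
  (basisMonomials (Fin m × (σ ⊕ Fin T)) ℂ).constr ℂ Ev

lemma L_monomial {T : ℕ} (v : Fin m × (σ ⊕ Fin T) →₀ ℕ) (c : ℂ) :
    L m σ T (monomial v c) = c • Ev v := by
  have h : monomial v c = c • (basisMonomials (Fin m × (σ ⊕ Fin T)) ℂ) v := by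
    rw [coe_basisMonomials, smul_monomial, smul_eq_mul, mul_one]
  rw [h, map_smul, L, Module.Basis.constr_basis]

lemma L_sum {T : ℕ} (f : MvPolynomial (Fin m × (σ ⊕ Fin T)) ℂ) :
    L m σ T f = ∑ v ∈ f.support, coeff v f • Ev v := by
  conv_lhs => rw [f.as_sum]
  rw [map_sum]
  exact Finset.sum_congr rfl fun v _ => L_monomial v _

/-- The image of a monomial in three columns. -/
noncomputable def Ev3 {m : ℕ} (σ : Type) (v : Fin m × Fin 3 →₀ ℕ) : LR m σ :=
  ∏ j : Fin 3, Lt σ fun i => v (i, j)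

/-- The map to the letter ring for three columns. -/
noncomputable def L3 (m : ℕ) (σ : Type) : MvPolynomial (Fin m × Fin 3) ℂ →ₗ[ℂ] LR m σ :=
  (basisMonomials (Fin m × Fin 3) ℂ).constr ℂ (Ev3 σ)

omit [Fintype σ] in
lemma L3_monomial (v : Fin m × Fin 3 →₀ ℕ) (c : ℂ) :
    L3 m σ (monomial v c) = c • Ev3 σ v := by
  have h : monomial v c = c • (basisMonomials (Fin m × Fin 3) ℂ) v := by
    rw [coe_basisMonomials, smul_monomial, smul_eq_mul, mul_one]
  rw [h, map_smul, L3, Module.Basis.constr_basis]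

/-- An empty small column in every monomial. -/
lemma L_ker {T : ℕ} {f : MvPolynomial (Fin m × (σ ⊕ Fin T)) ℂ}
    (hf : ∀ v, coeff v f ≠ 0 → ∃ j : Fin T, ∑ i, v (i, Sum.inr j) = 0) : L m σ T f = 0 := by
  rw [L_sum]
  apply Finset.sum_eq_zero
  intro v hv
  rw [mem_support_iff] at hv
  obtain ⟨j, hj⟩ := hf v hv
  have h1 : Lt σ (fun i => v (i, Sum.inr j)) = 0 := by
    rw [Lt, if_pos]
    funext i
    exact (Finset.sum_eq_zero_iff.1 hj) i (Finset.mem_univ i)
  rw [Ev, Finset.prod_eq_zero (Finset.mem_univ j) h1, mul_zero, smul_zero]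

lemma Ev_pm {T : ℕ} (s : Equiv.Perm (Fin T)) (v : Fin m × (σ ⊕ Fin T) →₀ ℕ) :
    Ev (pm s v) = Ev v := by
  rw [Ev, Ev]
  congr 1
  · exact Finset.prod_congr rfl fun p _ => by rw [pm_inl]
  · rw [← Equiv.prod_comp s]
    apply Finset.prod_congr rfl
    intro j _
    congr 1
    funext i
    exact pm_inr s v i j

lemma L_perm {T : ℕ} (s : Equiv.Perm (Fin T)) (f : MvPolynomial (Fin m × (σ ⊕ Fin T)) ℂ) :
    L m σ T (rc m (Sum.map id s : σ ⊕ Fin T → σ ⊕ Fin T) f) = L m σ T f := by
  conv_lhs => rw [f.as_sum]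
  rw [map_sum, map_sum, L_sum]
  apply Finset.sum_congr rfl
  intro v _
  rw [rc, rename_monomial]
  change L m σ T (monomial (pm s v) _) = _
  rw [L_monomial, Ev_pm]

/-- The exponent of the image. -/
noncomputable def Mv {T : ℕ} (v : Fin m × (σ ⊕ Fin T) →₀ ℕ) :
    (Fin m × σ) ⊕ (Fin m → ℕ) →₀ ℕ :=
  (∑ p : Fin m × σ, Finsupp.single (Sum.inl p) (v (p.1, Sum.inl p.2))) +
    ∑ j : Fin T, Finsupp.single (Sum.inr fun i => v (i, Sum.inr j)) 1

lemma Ev_full {T : ℕ} {v : Fin m × (σ ⊕ Fin T) →₀ ℕ}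
    (hv : ∀ j : Fin T, (fun i => v (i, Sum.inr j)) ≠ (0 : Fin m → ℕ)) :
    Ev v = monomial (Mv v) 1 := by
  classical
  have h1 : ∀ p : Fin m × σ, (X (Sum.inl p) ^ v (p.1, Sum.inl p.2) : LR m σ) =
      monomial (Finsupp.single (Sum.inl p) (v (p.1, Sum.inl p.2))) 1 := fun p => by
    rw [X_pow_eq_monomial]
  have h2 : ∀ j : Fin T, Lt σ (fun i => v (i, Sum.inr j)) =
      monomial (Finsupp.single (Sum.inr fun i => v (i, Sum.inr j)) 1) 1 := fun j => by
    rw [Lt, if_neg (hv j), X]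
  rw [Ev, Finset.prod_congr rfl fun p _ => h1 p, Finset.prod_congr rfl fun j _ => h2 j,
    ← monomial_sum_one, ← monomial_sum_one, monomial_mul, one_mul, Mv]

lemma Ev_zero {T : ℕ} {v : Fin m × (σ ⊕ Fin T) →₀ ℕ}
    (hv : ¬ ∀ j : Fin T, (fun i => v (i, Sum.inr j)) ≠ (0 : Fin m → ℕ)) : Ev v = 0 := by
  classical
  push Not at hv
  obtain ⟨j, hj⟩ := hv
  rw [Ev, Finset.prod_eq_zero (Finset.mem_univ j) (by rw [Lt, if_pos hj]), mul_zero]

lemma exists_pm {T : ℕ} {u v : Fin m × (σ ⊕ Fin T) →₀ ℕ} (h : Mv u = Mv v) :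
    ∃ s : Equiv.Perm (Fin T), u = pm s v := by
  classical
  have h1 : ∀ p : Fin m × σ, u (p.1, Sum.inl p.2) = v (p.1, Sum.inl p.2) := by
    intro p
    have h2 := DFunLike.congr_fun h (Sum.inl p)
    simp only [Mv, Finsupp.add_apply, Finsupp.finset_sum_apply, Finsupp.single_apply,
      Sum.inl.injEq, reduceCtorEq, if_false, Finset.sum_const_zero, add_zero,
      Finset.sum_ite_eq', Finset.mem_univ, if_true] at h2
    exact h2
  have h3 : Finset.univ.val.map (fun j : Fin T => fun i => v (i, Sum.inr j)) =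
      Finset.univ.val.map (fun j : Fin T => fun i => u (i, Sum.inr j)) := by
    ext α
    have h2 := DFunLike.congr_fun h (Sum.inr α)
    simp only [Mv, Finsupp.add_apply, Finsupp.finset_sum_apply, Finsupp.single_apply,
      Sum.inr.injEq, reduceCtorEq, if_false, Finset.sum_const_zero, zero_add] at h2
    rw [← Finset.card_filter, ← Finset.card_filter] at h2
    rw [Multiset.count_map, Multiset.count_map]
    have h4 : ∀ w : Fin m × (σ ⊕ Fin T) →₀ ℕ,
        (Finset.univ.filter fun j : Fin T => (fun i => w (i, Sum.inr j)) = α).card =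
        Multiset.card (Multiset.filter (fun j : Fin T => α = fun i => w (i, Sum.inr j))
          Finset.univ.val) := by
      intro w
      rw [Finset.card_def, Finset.filter_val]
      congr 2
      funext a
      exact propext eq_comm
    rw [← h4 v, ← h4 u]
    exact h2.symm
  obtain ⟨s, hs⟩ := exists_equiv' _ _ h3
  refine ⟨s, ?_⟩
  ext ⟨i, l⟩
  rcases l with l | l
  · rw [pm_inl]
    exact h1 (i, l)
  · obtain ⟨l', rfl⟩ := s.surjective l
    rw [pm_inr]
    exact congrFun (hs l') i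

/-- The map is injective on the full part of a symmetric polynomial. -/
lemma L_inj {T : ℕ} {f : MvPolynomial (Fin m × (σ ⊕ Fin T)) ℂ} (hf : Sy m σ T f)
    (h0 : L m σ T f = 0) (v : Fin m × (σ ⊕ Fin T) →₀ ℕ) (hv : coeff v f ≠ 0) :
    ∃ j : Fin T, ∑ i, v (i, Sum.inr j) = 0 := by
  classical
  by_contra hcon
  push Not at hcon
  have hfull : ∀ j : Fin T, (fun i => v (i, Sum.inr j)) ≠ (0 : Fin m → ℕ) := by
    intro j hj
    exact hcon j (Finset.sum_eq_zero fun i _ => congrFun hj i)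
  have h1 := congrArg (coeff (Mv v)) h0
  rw [L_sum, coeff_sum, coeff_zero] at h1
  have key : ∀ u ∈ f.support, coeff (Mv v) (coeff u f • Ev u) = coeff v f *
      (if (∀ j : Fin T, (fun i => u (i, Sum.inr j)) ≠ (0 : Fin m → ℕ)) ∧ Mv u = Mv v
        then 1 else 0) := by
    intro u _
    rw [coeff_smul, smul_eq_mul]
    by_cases hu : ∀ j : Fin T, (fun i => u (i, Sum.inr j)) ≠ (0 : Fin m → ℕ)
    · rw [Ev_full hu, coeff_monomial]
      by_cases huv : Mv u = Mv v
      · rw [if_pos huv, if_pos ⟨hu, huv⟩]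
        obtain ⟨s, rfl⟩ := exists_pm huv
        rw [coeff_pm s hf]
      · rw [if_neg huv, if_neg fun h => huv h.2, mul_zero, mul_zero]
    · rw [Ev_zero hu, coeff_zero, if_neg fun h => hu h.1, mul_zero, mul_zero]
  rw [Finset.sum_congr rfl key, ← Finset.mul_sum, ← Finset.sum_filter_ne_zero] at h1
  rcases mul_eq_zero.1 h1 with h2 | h2
  · exact hv h2
  · rw [Finset.sum_filter_ne_zero, Finset.sum_boole] at h2
    have h3 : (Finset.filter (fun u : Fin m × (σ ⊕ Fin T) →₀ ℕ =>
        (∀ j : Fin T, (fun i => u (i, Sum.inr j)) ≠ (0 : Fin m → ℕ)) ∧ Mv u = Mv v)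
        f.support).card = 0 := by exact_mod_cast h2
    rw [Finset.card_eq_zero] at h3
    have h4 : v ∈ Finset.filter (fun u : Fin m × (σ ⊕ Fin T) →₀ ℕ =>
        (∀ j : Fin T, (fun i => u (i, Sum.inr j)) ≠ (0 : Fin m → ℕ)) ∧ Mv u = Mv v)
        f.support := by
      rw [Finset.mem_filter, mem_support_iff]
      exact ⟨hv, hfull, rfl⟩
    rw [h3] at h4
    exact Finset.notMem_empty _ h4

end letters

end Vale.Agent.P181.SV.H376
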